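import Vale.Agent.P014X.Pp.St
import Vale.Agent.P014U.Pp.Lmx

/-! # P014X, block PATQ: the rows `LMX` and `LEX` -/

set_option autoImplicit false
set_option linter.all false

open NumberField Matrix Filter Submodule Set Sum
open scoped Classical

noncomputable section

namespace Vale.Agent.P014X.Pp

open Vale.Agent.P022 (Qb GQ IsConj)
open Vale.Agent.P027M.S (Inert)
open Vale.Agent.P022D.W (dec)
open Vale.Agent.P022E.GW (Ov Fb)
open Vale.Agent.P014U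
open Vale.Agent.P004F.Pr (ac)
open Vale.Agent.P004F.Pat (U Ae lm U_ch U_fin lm_mul lm_sub lm_one)
open Vale.Agent.P004F.Pa.Xl (ev ev_ker)
open Vale.Agent.P014U.Pq (Zq Gd Ps Tm Lu)
open Vale.Agent.P014U.Dr (Hm Zn)
open Vale.Agent.P014U.Kq (M2 F4 Gl Pk Sg)
open Vale.Agent.P014U.Pp (ps)
open Vale.Agent.P014U.Pp.Ex (Rw exl' ext_pl)
open Vale.Agent.P014U.Pp.Lx (two_zero cast_one gd_mono)
open Vale.Agent.P014T.Pp.Lv

variable [Pp]

namespace Lx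

section pts

variable {R M σ ι β : Type} [CommRing R] [AddCommGroup M] [Module R M] [Fintype σ] [Fintype ι]
  {γ : Gl R GQ σ} {τ c : GQ} {T : Finset ℕ} {D : β → Subgroup GQ} {q : Ps (σ ⊕ ι)}
  {p : Pk R GQ σ ι} {m : β → Matrix (Fin 2) (Fin p.g) R}

/-- points with values in a module -/
theorem ptm [IsEmpty β] (h : Lu γ τ T c D q p m) {z : GQ → Fin 2 → M} (hz : z ∈ Zq M T γ.ρ c) :
    ∃ κ, ac (p.Rm γ τ) κ = 0 ∧ ∀ g, ac (p.u g) κ = z g :=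
  ((h.bij M).surjOn (show (z, 0) ∈ _ from ⟨hz, fun b => isEmptyElim b⟩)).imp fun _ e =>
    ⟨e.1, congrFun (congrArg Prod.fst e.2)⟩

omit [Pp] in
theorem valm {κ : Fin p.g → M} (hκ : ac (p.Rm γ τ) κ = 0) {s : Type} {A B : Matrix s (Fin p.g) R}
    (e : ∀ i, A i - B i ∈ p.Rl γ τ) : ac A κ = ac B κ := funext fun i =>
  sub_eq_zero.1 ((map_sub (ev κ) _ _).symm.trans (ev_ker (A := p.Rm γ τ) hκ (e i)))

/-- two is a unit -/
theorem two_unit {N : ℕ} (f : Zn N →+* R) : IsUnit (2 : R) := by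
  have h : IsCoprime (2 : ℤ) ((pp : ℤ) ^ N) := by
    refine IsCoprime.pow_right ?_
    exact_mod_cast Nat.isCoprime_iff_coprime.2
      ((Nat.coprime_primes Nat.prime_two Pp.prime).2 (Ne.symm Pp.odd))
  obtain ⟨a, b, e⟩ := h
  have := congrArg (Int.cast (R := R)) e
  push_cast at this
  rw [two_zero f, mul_zero, add_zero] at this
  exact IsUnit.of_mul_eq_one_right _ this

end pts

variable {O : Type} [CommRing O]

/-- the limit of a product with values in the algebras -/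
theorem lv_ac (s : Fk O) {α I : Type} [Fintype I] (A : ∀ j, Matrix α I (s.R j))
    (x : ∀ j, I → s.B j) : lv s.ψ' (fun j => ac (A j) (x j)) = lm s.ψ A *ᵥ lv s.ψ' x := by
  have e : lm s.ψ A = lm s.ψ' fun j => (A j).map (algebraMap _ _) :=
    Matrix.ext fun a b => s.hψ _
  rw [e, ← lv_mv]
  exact congrArg _ (funext fun j => funext fun a => Finset.sum_congr rfl fun b _ =>
    Algebra.smul_def _ _)

theorem two_lim (s : Fk O) : IsUnit (2 : O) := by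
  have := ps_unit s.ae (a := fun _ => 2) (.of_forall fun j => two_unit (s.f j))
  rwa [show (fun _ => 2 : ∀ j, s.R j) = 2 from rfl, map_ofNat] at this

variable {s : Sk O} {ι : Type} [Fintype ι] {j : ℕ} {n : ι → s.Kq j}

theorem mem_Tn {x : ℕ} : x ∈ s.Tn j n ↔ x ∈ s.S₀ ∪ s.T j ∨ ∃ i, (s.pl j).l (n i) = x := by
  simp only [Sk.Tn, Finset.mem_union (s := s.S₀ ∪ s.T j), Finset.mem_image, Finset.mem_univ, true_and,
    exists_exists_eq_and]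

theorem inj_im (h : Function.Injective fun i => (s.pl j).l (n i)) :
    InjOn (s.pl j).l (Finset.univ.image n : Finset _) := by
  intro x hx y hy a
  obtain ⟨i, -, rfl⟩ := Finset.mem_image.1 hx
  obtain ⟨i', -, rfl⟩ := Finset.mem_image.1 hy
  rw [h a]

variable (k : s.Kv j (s.pl j) (s.κ j))
include k

theorem gd_Tn {a : GQ → M2 (s.R j)} (G : Gd ⊤ (s.S₀ ∪ s.T j) a) : Gd ⊤ (s.Tn j n) a :=
  gd_mono G Finset.subset_union_left fun l m => (mem_Tn.1 m).elim (G.pr l) fun ⟨i, e⟩ =>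
    e ▸ (k.ov (n i)).1

/-- the places of a stage are good -/
theorem ps_ok (A : s.Ad j n) (V : s.Lv j) {γ : Gl (s.R j) GQ s.σ}
    (G : Gd ⊤ (s.S₀ ∪ s.T j) γ.ρ)
    (tm : ∀ y, Tm γ.ρ ((s.q j).l y) ((s.q j).P y) ((s.q j).φ y) ((s.q j).t y))
    (hN : ∀ y, γ.N y = X4F.Nt (γ.ρ ((s.q j).φ y)) (γ.ρ ((s.q j).t y)) ((s.q j).l y))
    (fr : ∀ i, γ.ρ ((s.pl j).φ (n i)) = 1) : (ps (s.q j) (s.kp j n)).Ok γ 1 := by
  have u : ∀ i g, Inert ((s.pl j).P (n i)) g → γ.ρ g = 1 := fun i g m =>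
    G.unr g trivial ⟨_, A.out i, _, k.ov _, m⟩
  refine ⟨?_, ?_, hN, fun i => (fr i).trans γ.ρ.map_one.symm, u,
    fun i => cast_one (s.f j) (k.md _)⟩
  · rintro (y | i)
    · exact tm y
    · exact ⟨k.ov _, fun e => A.out i (Finset.mem_union_left _
        ((show (s.pl j).l (n i) = pp from e) ▸ s.gs.two)), k.fb _, k.gn _,
        fun g m => ⟨0, by rw [pow_zero, pow_one]; exact u i g m⟩⟩
  · rintro (y | i) (y' | i') e
    · exact congrArg inl (V.inj e)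
    · exact absurd ((show (s.q j).l y = (s.pl j).l (n i') from e) ▸ V.mem y) (A.out i')
    · exact absurd ((show (s.pl j).l (n i) = (s.q j).l y' from e).symm ▸ V.mem y') (A.out i)
    · exact congrArg inr (A.inj e)

theorem ok1 (A : s.Ad j n) (V : s.Lv j) : (ps (s.q j) (s.kp j n)).Ok (s.γ j) 1 :=
  ps_ok k A V V.gd V.tm V.hN A.fr

theorem ok2 (A : s.Ad j n) (V : s.Lv j) : (ps (s.q j) (s.kp j n)).Ok (s.γ' j) 1 :=
  ps_ok k A V V.gd' V.tm' V.hN' A.fr'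

end Lx

open Lx

/-- **row LMX** -/
theorem lmx : LMX := by
  intro O _ s ι _ n hn
  obtain ⟨a₀, a₀', G₀, G₀', res⟩ := s.gs.res
  obtain ⟨C, hC⟩ := Pq.levq G₀ s.gs.two
  obtain ⟨C', hC'⟩ := Pq.levq G₀' s.gs.two
  obtain ⟨b, hb⟩ := s.gs.bd
  let B := C + C' + 2 * (b + Fintype.card ι) + 6 * (Fintype.card s.σ + Fintype.card ι) + 1
  let P : ∀ j, (x : Fin 4 → Fin B) → Rw (s.R j) s.σ ι (x 0) (x 1) → Rw (s.R j) s.σ ι (x 2) (x 3) →
      Matrix (Fin 2) (Fin (x 2)) (s.R j) → (Fin (x 0) → s.B j) → (Fin (x 0) → s.R j) → Prop :=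
    fun j x X Y m κ dg => (x 1 + 2 * (Fintype.card s.σ + Fintype.card ι) + 2 = x 0 ∧
      x 3 + 2 * (Fintype.card s.σ + Fintype.card ι) = x 2) ∧
      ∃ k, n j = some k ∧ s.Ls j k X.pk Y.pk m κ dg
  have h1 : ∀ᶠ j in U, ∃ x, ∃ X Y m κ dg, P j x X Y m κ dg := by
    filter_upwards [hn, s.gs.lv, res, s.ks] with j ⟨k, e, A⟩ V ⟨r1, l, l1, l2, l3, Q, l4, l5⟩ ks
    have eT : s.S₀ ∪ (s.T j ∪ (Finset.univ.image k).image (s.pl j).l) = s.Tn j k :=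
      (Finset.union_assoc ..).symm
    have mem : ∀ x, (ps (s.q j) (s.kp j k)).l x ∈ s.Tn j k := by
      rintro (y | i)
      exacts [mem_Tn.2 (.inl (V.mem y)), mem_Tn.2 (.inr ⟨i, rfl⟩)]
    have rel : ∀ a : GQ → M2 (ZMod pp), (∀ g ∈ dec Q, a g = 1) → ∃ l ∈ s.Tn j k, l ≠ pp ∧
        (∀ x, (ps (s.q j) (s.kp j k)).l x ≠ l) ∧ ∃ Q, Ov l Q ∧ ∀ g ∈ dec Q, a g = 1 :=
      fun a t => ⟨l, mem_Tn.2 (.inl l1), l2, by
        rintro (y | i)
        exacts [l3 y, fun e => A.out i ((show (s.pl j).l (k i) = l from e) ▸ l1)], Q, l4, t⟩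
    have cd : (s.T j ∪ (Finset.univ.image k).image (s.pl j).l).card ≤ b + Fintype.card ι :=
      (Finset.card_union_le ..).trans (Nat.add_le_add (hb j)
        (Finset.card_image_le.trans Finset.card_image_le))
    obtain ⟨X, m₀, x1, -, x2, x3⟩ := hC (s.R j) (s.π j) (s.N j) s.σ ι Empty (s.γ j) 1 s.c _ _
      (fun _ => s.P₂) (two_zero (s.f j)) (fun g => (r1 g).1) (eT ▸ gd_Tn ks V.gd) s.gs.cc
      (ok1 ks A V) (eT ▸ mem) (fun _ => s.gs.ov) (.inr (eT ▸ rel _ fun g m => (l5 g m).1))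
    obtain ⟨Y, m, y1, -, y2, y3⟩ := hC' (s.R j) (s.π j) (s.N j) s.σ ι Unit (s.γ' j) 1 s.c _ _
      (fun _ => s.P₂) (two_zero (s.f j)) (fun g => (r1 g).2) (eT ▸ gd_Tn ks V.gd') s.gs.cc
      (ok2 ks A V) (eT ▸ mem) (fun _ => s.gs.ov) (.inr (eT ▸ rel _ fun g m => (l5 g m).2))
    rw [eT] at x1 y1
    obtain rfl : m₀ = fun _ => 0 := funext fun b => b.elim
    obtain ⟨κ, k1, k2⟩ := ptm x1 (ks.mem _ (inj_im A.inj))
    obtain ⟨dg, d1, d2⟩ := x1.dg (gd_Tn ks V.gd) V.fix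
    simp only [Fintype.card_eq_zero, Fintype.card_unique] at x3 y3
    exact ⟨![⟨X.g, by omega⟩, ⟨X.r, by omega⟩, ⟨Y.g, by omega⟩, ⟨Y.r, by omega⟩],
      ⟨X.Q, X.l, X.F, X.S, X.u⟩, ⟨Y.Q, Y.l, Y.F, Y.S, Y.u⟩, m (), κ, dg,
      ⟨by show X.r + _ + 2 = X.g; omega, by show Y.r + _ = Y.g; omega⟩, k, e, A, x1, y1, k1, k2, d1, d2⟩
  have : Nonempty (Fin B) := ⟨⟨0, Nat.succ_pos _⟩⟩
  obtain ⟨x', h2⟩ := U_ch (α := fun _ => Fin 4 → Fin B) h1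
  obtain ⟨x, hx⟩ := U_fin x'
  have h3 : ∀ᶠ j in U, ∃ X Y m κ dg, P j x X Y m κ dg := (h2.and hx).mono fun j a => a.2 ▸ a.1
  obtain ⟨X, h3⟩ := U_ch h3
  obtain ⟨Y, h3⟩ := U_ch h3
  obtain ⟨m, h3⟩ := U_ch h3
  obtain ⟨κ, h3⟩ := U_ch h3
  obtain ⟨dg, h3⟩ := U_ch h3
  obtain ⟨_, c, -⟩ := h3.exists
  exact ⟨⟨_, _, fun j => (X j).Q, fun j => (X j).l, fun j => (X j).F, fun j => (X j).S, fun j => (X j).u⟩,
    ⟨_, _, fun j => (Y j).Q, fun j => (Y j).l, fun j => (Y j).F, fun j => (Y j).S, fun j => (Y j).u⟩,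
    m, κ, dg, c.1, c.2, h3.mono fun j a => a.2, rfl⟩

/-- **row LEX** -/
theorem lex : LEX := by
  intro O _ s L h hh
  let p : ∀ j, (Option L.ι → s.Kq j) → Prop := fun j k =>
    L.n j = some (fun i => k (some i)) ∧ s.Ad j k ∧
      (∀ i, L.X.u j ((h j)⁻¹ * (s.pl j).φ (k none)) i ∈ (L.X.pk j).Rl (s.γ j) 1) ∧
      ∀ i, L.Y.u j ((h j)⁻¹ * (s.pl j).φ (k none)) i ∈ (L.Y.pk j).Rl (s.γ' j) 1
  have ex : ∀ᶠ j in U, ∃ k, p j k := by
    filter_upwards [L.un, s.gs.lv, s.ks, hh] with j ⟨k, e0, u⟩ V ks ⟨c1, c2, c3⟩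
    obtain ⟨W, hW, w⟩ := u.hX.lc
    obtain ⟨W', hW', w'⟩ := u.hY.lc
    obtain ⟨Z, hZ, z⟩ := V.gd.lc
    obtain ⟨Z', hZ', z'⟩ := V.gd'.lc
    obtain ⟨k₀, n0, ⟨⟨m1, m2⟩, m3⟩, m4⟩ := ks.ex (h j) c1 c2 c3 (W ⊓ W' ⊓ Z ⊓ Z') (s.Tn j k)
      (((hW.inter hW').inter hZ).inter hZ')
    refine ⟨fun o => o.elim k₀ k, e0, ⟨?_, ?_, ?_, ?_⟩, w _ m1, w' _ m2⟩
    · rintro (_ | x) (_ | y) q
      · rfl
      · exact absurd (mem_Tn.2 (.inr ⟨y, Eq.symm q⟩)) n0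
      · exact absurd (mem_Tn.2 (.inr ⟨x, q⟩)) n0
      · exact congrArg some (u.ad.inj q)
    · rintro (_ | x)
      exacts [fun a => n0 (mem_Tn.2 (.inl a)), u.ad.out x]
    · rintro (_ | x)
      · show (s.γ j).ρ ((s.pl j).φ k₀) = _
        rw [← mul_inv_cancel_left (h j) ((s.pl j).φ k₀), map_mul, z _ trivial m3, c1, mul_one]
      · exact u.ad.fr x
    · rintro (_ | x)
      · show (s.γ' j).ρ ((s.pl j).φ k₀) = _
        rw [← mul_inv_cancel_left (h j) ((s.pl j).φ k₀), map_mul, z' _ trivial m4, c2, mul_one]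
      · exact u.ad.fr' x
  let K := fun j => if a : ∃ k, p j k then some a.choose else none
  obtain ⟨X, Y, m, κ, dg, a, b, un, -⟩ := lmx O s (Option L.ι) K (ex.mono fun j a =>
    ⟨a.choose, dif_pos a, a.choose_spec.2.1⟩)
  let L' : s.Lm := ⟨Option L.ι, K, X, Y, m, κ, dg, a, b, un⟩
  have lv1 : ∀ᶠ j in U, ∃ k, p j k ∧ s.Lv j ∧ s.Kv j (s.pl j) (s.κ j) ∧
      s.Ls j (fun i => k (some i)) (L.X.pk j) (L.Y.pk j) (L.m j) (L.κ j) (L.dg j) ∧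
      s.Ls j k (X.pk j) (Y.pk j) (m j) (κ j) (dg j) := by
    filter_upwards [L.un, un, ex, s.gs.lv, s.ks] with j ⟨k1, e1, u1⟩ ⟨k, e2, u2⟩ a V ks
    obtain rfl : a.choose = k := Option.some.inj ((dif_pos a).symm.trans e2)
    obtain rfl : k1 = _ := Option.some.inj (e1.symm.trans a.choose_spec.1)
    exact ⟨_, a.choose_spec, V, ks, u1, u2⟩
  have hT : ∀ {j} (k : Option L.ι → s.Kq j) x,
      x ∈ s.Tn j k ↔ x = (s.pl j).l (k none) ∨ x ∈ s.Tn j fun i => k (some i) := fun k x => by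
    rw [mem_Tn, mem_Tn, Option.exists, eq_comm]
    tauto
  have nT : ∀ {j} {k : Option L.ι → s.Kq j}, s.Ad j k →
      (s.pl j).l (k none) ∉ s.Tn j fun i => k (some i) :=
    fun A a => (mem_Tn.1 a).elim (A.out none) fun ⟨i, e⟩ => by cases A.inj e
  obtain ⟨EX⟩ := ext_pl (ψ := s.ψ) (Γ := s.G) (γ := s.γ) (τ := 1) (fun _ => rfl) rfl s.ae
    (d := fun j => ⟨L.X.Q j, L.X.l j, L.X.F j, L.X.S j, L.X.u j⟩)
    (d' := fun j => ⟨X.Q j, X.l j, X.F j, X.S j, X.u j⟩) (Equiv.refl _) h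
    (lv1.mono fun j ⟨k, q, V, ks, u, u'⟩ => exl' (two_zero (s.f j)) (Equiv.refl _) u.hX u'.hX
      (ok1 ks u'.ad V) (hT k) (nT u'.ad) (by rintro (_ | _) <;> rfl) (by rintro (_ | _) <;> rfl)
      q.2.2.1)
  obtain ⟨EY⟩ := ext_pl (ψ := s.ψ) (Γ := s.G') (γ := s.γ') (τ := 1) (fun _ => rfl) rfl s.ae
    (d := fun j => ⟨L.Y.Q j, L.Y.l j, L.Y.F j, L.Y.S j, L.Y.u j⟩)
    (d' := fun j => ⟨Y.Q j, Y.l j, Y.F j, Y.S j, Y.u j⟩) (Equiv.refl _) h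
    (lv1.mono fun j ⟨k, q, V, ks, u, u'⟩ => exl' (two_zero (s.f j)) (Equiv.refl _) u.hY u'.hY
      (ok2 ks u'.ad V) (hT k) (nT u'.ad) (by rintro (_ | _) <;> rfl) (by rintro (_ | _) <;> rfl)
      q.2.2.2)
  obtain ⟨y, hy⟩ := two_lim s.toFk
  refine ⟨L', ⟨⟨Equiv.refl _, EX, EY, ↑y⁻¹, y⁻¹.isUnit, ?_⟩⟩⟩
  show lm s.ψ (fun j => X.S j none) *ᵥ lv s.ψ' κ = ((y⁻¹ : Oˣ) : O) •
    ((lm s.ψ' s.A - 1).adjugate *ᵥ (lm s.ψ (fun j => L.X.u j (h j)) *ᵥ lv s.ψ' L.κ))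
  have key : (2 : O) • (lm s.ψ (fun j => X.S j none) *ᵥ lv s.ψ' κ) =
      (lm s.ψ' s.A - 1).adjugate *ᵥ (lm s.ψ (fun j => L.X.u j (h j)) *ᵥ lv s.ψ' L.κ) := by
    rw [two_smul, ← lm_one (ψ := s.ψ'), ← lm_sub, ← lm_adj, ← lv_ac s.toFk, ← lv_ac s.toFk,
      ← lv_mv, ← lv_add]
    refine lv_ae s.ae' (lv1.mono fun j ⟨k, q, V, ks, u, u'⟩ => ?_)
    have im : Finset.univ.image k = insert (k none) (Finset.univ.image fun i => k (some i)) := by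
      ext x
      simp only [Finset.mem_image, Finset.mem_univ, true_and, Finset.mem_insert, Option.exists,
        eq_comm]
    have f := ks.fs (Finset.univ.image fun i => k (some i)) (k none) (fun a => by
      obtain ⟨i, -, e⟩ := Finset.mem_image.1 a
      cases u'.ad.inj (congrArg (s.pl j).l e)) (im ▸ inj_im u'.ad.inj)
    have e2 := valm u.kr (A := L.X.u j ((s.pl j).φ (k none))) (B := L.X.u j (h j)) fun i => by
      have := u.hX.tr (g := h j) q.2.2.1 i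
      rwa [mul_inv_cancel_left] at this
    have e3 : ac (X.S j none) (κ j) = s.κ j (Finset.univ.image k) ((s.pl j).t (k none)) :=
      (valm u'.kr (u'.hX.hS none)).trans (u'.ku _)
    rw [e3, im, ← two_nsmul]
    refine f.trans ?_
    rw [← u.ku, ← e2]
  rw [← key, ← hy, smul_smul, Units.inv_mul, one_smul]

end Vale.Agent.P014X.Pp
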