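import Vale.Agent.P014X.Pp.St
import Vale.Agent.P014U.Pp.Lcb
import Vale.Agent.P014U.Pp.Lok

/-! # P014X, block PATQ: the algebra of the limit -/

set_option autoImplicit false
set_option linter.all false

open NumberField Matrix Filter

noncomputable section

namespace Vale.Agent.P014X.Pp

open Vale.Agent.P022 (Qb GQ)
open Vale.Agent.P014U
open Vale.Agent.P004F.Pat (U Ae lm lm_mul lm_tr lm_rows lm_sub lm_one lm_zero lm_smul lm_neg)
open Vale.Agent.P014U.Pp (BTL Jm)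
open Vale.Agent.P014U.Pp.Lcb (ec_eq ec_hm)
open Vale.Agent.P014T.Pp.Lv (ps_unit)

variable [Pp]

theorem Fk.unit_nat {O : Type} [CommRing O] (s : Fk O) {n : ℕ} (h : ¬ pp ∣ n) : IsUnit (n : O) := by
  rw [← map_natCast s.ψ]
  exact ps_unit s.ae (.of_forall fun j => P014U.Pp.Lo.odd_unit (s.f j) h)

/-- **row LCB** -/
theorem lcb (hb : BTL) : LCB := fun w O _ s => by
  refine ⟨by simpa using s.unit_nat not_dvd_two,
    ⟨fun h m g => Eventually.mono m fun j e => s.gs.nK.conj_mem _ e _⟩,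
    ⟨fun h m g => Eventually.mono m fun j e => ⟨?_, ?_, (Dr.Hm_normal _).conj_mem _ e.2.2 _⟩⟩,
    fun g => Ultrafilter.eventually_or.1 (.of_forall fun j => s.gs.cov (g j)), fun y => ?_⟩
  · rw [Pi.mul_apply, Pi.mul_apply, map_mul, map_mul, e.1, mul_one, ← map_mul, Pi.inv_apply,
      mul_inv_cancel, map_one]
  · rw [Pi.mul_apply, Pi.mul_apply, map_mul, map_mul, e.2.1, mul_one, ← map_mul, Pi.inv_apply,
      mul_inv_cancel, map_one]
  obtain ⟨D, hD⟩ := s.g2.cb y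
  have k := s.gs.lv.mono fun j v => hb _ _ (s.γ' j).ρ _ _ _ _ _ v.gd (v.tm y)
    (by rw [v.dual, ec_eq fun z => Dr.root_cong (v.tm y).ov (Dr.nd_two (v.tm y).ov (v.tm y).ne _)
      (v.tm y).fb, map_natCast])
    (by rw [v.dual, ec_hm (Dr.inert_Hm (v.tm y).ov (Dr.nd_two (v.tm y).ov (v.tm y).ne _)
      (v.tm y).gn.1), map_one, one_smul])
  have e : fromRows (s.G.ρ (fun j => (s.q j).φ y) - 1) (s.G.ρ (fun j => (s.q j).t y) - 1) =
      lm s.ψ fun j => fromRows ((s.γ j).ρ ((s.q j).φ y) - 1) ((s.γ j).ρ ((s.q j).t y) - 1) := by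
    rw [lm_rows, lm_sub, lm_sub, lm_one]
    rfl
  refine ⟨_, D, lm s.ψ fun j => (w (s.N j) ((s.q j).l y) ((s.q j).t y) : s.R j) • -Jm (s.R j), hD,
    ?_, ?_⟩ <;> rw [e]
  · exact (lm_mul _ _).symm.trans ((s.ae.lm ((k.and s.gs.lv).mono fun j v => by
      rw [v.2.hN, v.1.1])).trans lm_zero)
  · refine (lm_mul (fun j => _ᵀ) _).symm.trans ((s.ae.lm ((k.and s.gs.lv).mono fun j v => ?_)).trans
      (lm_mul _ _))
    rw [Matrix.mul_smul, v.2.hN', Matrix.smul_mul]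
    exact congrArg _ v.1.2

end Vale.Agent.P014X.Pp
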