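import Vale.Agent.P014X.Pp.St
import Vale.Agent.P014U.Pp.Lok

/-! # P014X, block PATQ: the row `LOK` -/

set_option autoImplicit false
set_option linter.all false

open NumberField Matrix Filter Submodule Set Sum
open scoped Classical

noncomputable section

namespace Vale.Agent.P014X.Pp

open Vale.Agent.P022 (Qb GQ IsConj)
open Vale.Agent.P027M.S (Inert)
open Vale.Agent.P022D.W (dec)
open Vale.Agent.P022E.GW (Ov Fb)
open Vale.Agent.P014U
open Vale.Agent.P004F.Pr (ac)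
open Vale.Agent.P004F.Pa.Xl (ev ev_ker)
open Vale.Agent.P004F.Pat (U Ae lm U_ch U_fin lm_mul lm_sub lm_one lm_add lm_sum lm_smul lm_tr lm_det
  lm_rows vm_mem)
open Vale.Agent.P014U.Pq (Zq Gd Ps Tm Lu)
open Vale.Agent.P014U.Dr (Hm Zn)
open Vale.Agent.P014U.Kq (M2 F4 Gl Pk Sg)
open Vale.Agent.P014U.Pp (ISL ec ps lg Rs Hs Jm Bt Vn)
open Vale.Agent.P014U.Pp.Lx (cast_one gd_mono)
open Vale.Agent.P014U.Pp.Lo (odd_unit lm_Jm sp3 Rl_lim Rm_lim kr)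
open Vale.Agent.P014T.Pp.Lv
open Vale.Agent.P014X.Kq (Po So)

variable [Pp]

namespace Lo

section side

variable {R : ℕ → Type} [∀ j, CommRing (R j)] [∀ j, IsLocalRing (R j)] {O : Type} [CommRing O]
  {ψ : (∀ j, R j) →+* O} (hψ : Ae ψ) {σ ι β : Type} [Fintype σ] [Fintype ι] [Fintype β]
  {γ : ∀ j, Gl (R j) GQ σ} {c : GQ} {X : Rs R σ ι}
include hψ

/-- one side -/
theorem po {D : β → Subgroup GQ} {m : ∀ j, β → Matrix (Fin 2) (Fin X.g) (R j)} {H : Subgroup (ℕ → GQ)}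
    {d : ℕ} (cn : X.r + 2 * (Fintype.card σ + Fintype.card ι) + d ≤ X.g) {g : ℕ → GQ}
    (hg : ∀ j b, g j ∈ D b) {δ : ∀ j, R j} (hδ : ∀ j (b : β), ((γ j).ρ (g j) - 1).det ∣ δ j)
    (uδ : IsUnit (ψ δ)) {t : ι → ℕ → GQ} (ht : ∀ x, t x ∈ H)
    (h : ∀ᶠ j in U, ∃ T q, Lu (γ j) 1 T c D q (X.pk j) (m j) ∧ ∀ x, q.t (inr x) = t x j) :
    Po (lg ψ γ) (X.lim ψ) H (fun _ => c) d := by
  have us : ∀ (Z : Set (ℕ → GQ)) g, g ∈ Z → ∀ i, (X.lim ψ).u g i ∈ (X.lim ψ).Us (lg ψ γ) 1 Z :=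
    fun Z g m i => mem_sup_left (subset_span ⟨g, m, i, rfl⟩)
  refine ⟨cn, fun g g' i => ?_, fun v => ?_,
    fun i => Rl_lim hψ (τ := 1) (h.mono fun j ⟨_, _, u, _⟩ => u.fr i), fun x i => ?_⟩
  · have := Rl_lim hψ (τ := 1) (h.mono fun j ⟨_, _, u, _⟩ => u.coc (g j) (g' j) i)
    rwa [← lm_row, lm_sub, lm_sub, lm_mul] at this
  · obtain ⟨f, h1⟩ := U_ch (h.mono fun j ⟨_, _, u, _⟩ => u.gen (hg j) (hδ j))
    obtain ⟨e', h1⟩ := U_ch h1
    obtain ⟨e, he⟩ := U_fin (α := Fin X.g → Fin 2) e'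
    obtain ⟨z, hz⟩ := uδ.exists_left_inv
    let B : ∀ j, Matrix (Fin X.g ⊕ (Fin X.r ⊕ (σ ⊕ ι) × Fin 2) ⊕ Fin 2) (Fin X.g) (R j) := fun j =>
      fromRows (.of fun x => X.u j (f j x) (e x)) (fromRows ((X.pk j).Rm (γ j) 1) (X.u j (g j)))
    have h2 : ∀ᶠ j in U, ∀ v : Fin X.g → R j, δ j • v ∈ span (R j) (range (B j)) := by
      filter_upwards [h1, he] with j k1 k2 v
      have k3 := k1 v
      rw [k2] at k3
      exact sp3 (β := β) k3
    have h3 : ∀ v : ∀ j, Fin X.g → R j, ψ δ • lv ψ v ∈ span O (range (lm ψ B)) := fun v => by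
      rw [← lv_smul]
      exact lv_mem hψ (h2.mono fun j k => k (v j))
    have : ∀ a, ψ δ • (1 : Matrix _ _ O) a ∈ (X.lim ψ).Us (lg ψ γ) 1 univ := fun a => by
      have := h3 fun j => (1 : Matrix (Fin X.g) (Fin X.g) (R j)) a
      rw [← lm_row, lm_one, lm_rows, lm_rows, sp_rows, sp_rows] at this
      refine SetLike.le_def.1 (sup_le (span_le.2 ?_) (sup_le ?_ (span_le.2 ?_))) this
      · rintro _ ⟨x, rfl⟩
        exact us univ (fun j => f j x) trivial (e x)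
      · exact (congrArg (fun M => span O (range M)) (Rm_lim (τ := 1)).symm).le.trans le_sup_right
      · rintro _ ⟨i, rfl⟩
        exact us univ g trivial i
    have := smul_mem _ z (sum_mem (t := Finset.univ) fun a _ => smul_mem _ (v a) (this a))
    simp only [smul_comm (v _) (ψ δ)] at this
    rwa [← Finset.smul_sum, smul_smul, hz, one_smul, ← vecMul_eq_sum, vecMul_one] at this
  · have := Rl_lim hψ (τ := 1) (v := fun j => X.S j x i - X.u j (t x j) i)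
      (h.mono fun j ⟨_, _, u, e⟩ => e x ▸ u.hS x i)
    rw [lv_sub] at this
    exact (sub_add_cancel _ _).subst (motive := (· ∈ _)) (add_mem (mem_sup_right this) (us _ _ (ht x) i))

end side

variable {O : Type} [CommRing O]

/-- the action on points with values in the algebras passes to the limit -/
theorem lv_ac (s : Fk O) {α I : Type} [Fintype I] (A : ∀ j, Matrix α I (s.R j))
    (x : ∀ j, I → s.B j) : lm s.ψ A *ᵥ lv s.ψ' x = lv s.ψ' fun j => ac (A j) (x j) := by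
  have e : lm s.ψ A = lm s.ψ' fun j => (A j).map (algebraMap _ _) :=
    Matrix.ext fun a b => s.hψ _
  rw [e, ← lv_mv]
  exact congrArg _ (funext fun j => funext fun a => Finset.sum_congr rfl fun i _ =>
    (Algebra.smul_def _ _).symm)

variable {s : Sk O} {ι : Type} [Fintype ι] {j : ℕ} {n : ι → s.Kq j}

theorem mem_Tn {x : ℕ} : x ∈ s.Tn j n ↔ x ∈ s.S₀ ∪ s.T j ∨ ∃ i, (s.pl j).l (n i) = x := by
  simp only [Sk.Tn, Finset.mem_union (s := s.S₀ ∪ s.T j), Finset.mem_image, Finset.mem_univ, true_and,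
    exists_exists_eq_and]

theorem inj_im (h : Function.Injective fun i => (s.pl j).l (n i)) :
    InjOn (s.pl j).l (Finset.univ.image n : Finset _) := by
  intro x hx y hy a
  obtain ⟨i, -, rfl⟩ := Finset.mem_image.1 hx
  obtain ⟨i', -, rfl⟩ := Finset.mem_image.1 hy
  rw [h a]

variable (K : s.Kv j (s.pl j) (s.κ j))
include K

theorem gd_Tn {a : GQ → M2 (s.R j)} (G : Gd ⊤ (s.S₀ ∪ s.T j) a) : Gd ⊤ (s.Tn j n) a :=
  gd_mono G Finset.subset_union_left fun l m => (mem_Tn.1 m).elim (G.pr l) fun ⟨i, e⟩ =>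
    e ▸ (K.ov (n i)).1

/-- the places of a stage are good -/
theorem ps_ok (A : s.Ad j n) (V : s.Lv j) {γ : Gl (s.R j) GQ s.σ}
    (G : Gd ⊤ (s.S₀ ∪ s.T j) γ.ρ)
    (tm : ∀ y, Tm γ.ρ ((s.q j).l y) ((s.q j).P y) ((s.q j).φ y) ((s.q j).t y))
    (hN : ∀ y, γ.N y = X4F.Nt (γ.ρ ((s.q j).φ y)) (γ.ρ ((s.q j).t y)) ((s.q j).l y))
    (fr : ∀ i, γ.ρ ((s.pl j).φ (n i)) = 1) : (ps (s.q j) (s.kp j n)).Ok γ 1 := by
  have u : ∀ i g, Inert ((s.pl j).P (n i)) g → γ.ρ g = 1 := fun i g k =>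
    G.unr g trivial ⟨_, A.out i, _, K.ov _, k⟩
  refine ⟨?_, ?_, hN, fun i => (fr i).trans (map_one _).symm, u, fun i => cast_one (s.f j) (K.md _)⟩
  · rintro (y | i)
    · exact tm y
    · exact ⟨K.ov _, fun e => A.out i (Finset.mem_union_left _
        ((show (s.pl j).l (n i) = pp from e) ▸ s.gs.two)), K.fb _, K.gn _,
        fun g k => ⟨0, by rw [pow_zero, pow_one]; exact u i g k⟩⟩
  · rintro (y | i) (y' | i') e
    · exact congrArg inl (V.inj e)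
    · exact absurd ((show (s.q j).l y = (s.pl j).l (n i') from e) ▸ V.mem y) (A.out i')
    · exact absurd ((show (s.pl j).l (n i) = (s.q j).l y' from e).symm ▸ V.mem y') (A.out i)
    · exact congrArg inr (A.inj e)

theorem ok1 (A : s.Ad j n) (V : s.Lv j) : (ps (s.q j) (s.kp j n)).Ok (s.γ j) 1 :=
  ps_ok K A V V.gd V.tm V.hN A.fr

theorem ok2 (A : s.Ad j n) (V : s.Lv j) : (ps (s.q j) (s.kp j n)).Ok (s.γ' j) 1 :=
  ps_ok K A V V.gd' V.tm' V.hN' A.fr'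

/-- the singular values are on the line -/
theorem ks0 {X Y : Pk (s.R j) GQ s.σ ι} {m : Matrix (Fin 2) (Fin Y.g) (s.R j)}
    {κ : Fin X.g → s.B j} {dg : Fin X.g → s.R j} (u : s.Ls j n X Y m κ dg) (x : ι) :
    (s.A j - 1) *ᵥ ac (X.S x) κ = 0 := by
  have e : ac (X.S x) κ = ac (X.u ((s.pl j).t (n x))) κ := funext fun i => by
    have := ev_ker u.kr (u.hX.hS x i)
    rwa [map_sub, sub_eq_zero] at this
  rw [e, u.ku]
  exact K.ker _ (inj_im u.ad.inj) _ (Finset.mem_image_of_mem _ (Finset.mem_univ x))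

end Lo

open Lo

/-- **row LOK** -/
theorem lok (isl : ISL) : LOK := by
  choose w hw H using isl
  refine ⟨w, fun O _ s L => ?_⟩
  let t : L.ι → ℕ → GQ := fun x j => (L.n j).elim 1 fun k => (s.pl j).t (k x)
  let ω : L.ι → ∀ j, s.R j := fun x j => (L.n j).elim 1 fun k =>
    w (s.N j) ((s.pl j).l (k x)) ((s.pl j).t (k x))
  have ht : ∀ x, t x ∈ s.H := fun x => ((L.un.and s.gs.lv).and s.ks).mono
    fun j ⟨⟨⟨k, e, u⟩, V⟩, K⟩ => by
    have a := ok1 K u.ad V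
    have i : Inert ((s.pl j).P (k x)) ((s.pl j).t (k x)) := (K.gn _).1
    simp only [t, e, Option.elim]
    exact ⟨a.kt x _ i, (ok2 K u.ad V).kt x _ i, Dr.inert_Hm (K.ov _) (fun d => (a.tm (inr x)).ne
      ((Nat.prime_dvd_prime_iff_eq (K.ov _).1 pp_prime).1 ((K.ov _).1.dvd_of_dvd_pow d))) i⟩
  obtain ⟨g, g1, g2⟩ := s.g1.g0
  obtain ⟨η, η1, η2⟩ := s.g3
  have uω : ∀ x, IsUnit (s.ψ (ω x)) := fun x => ps_unit s.ae (((L.un.and s.gs.lv).and s.ks).mono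
    fun j ⟨⟨⟨k, e, u⟩, V⟩, K⟩ => by
      simp only [ω, e, Option.elim]
      exact odd_unit (s.f j) (hw _ _ _ _ (K.ov _) ((ok1 K u.ad V).tm (inr x)).ne (K.gn _)))
  refine ⟨po s.ae (β := Empty) (D := fun _ => dec s.P₂) (m := fun _ _ => 0) L.cX.le (g := 1)
      (fun _ b => b.elim) (δ := 1) (fun _ b => b.elim) (by simp) ht
      (L.un.mono fun j ⟨k, e, u⟩ => ⟨_, _, u.hX, fun x => by simp only [t, e]; rfl⟩),
    po s.ae (β := Unit) (D := fun _ => dec s.P₂) (m := fun j _ => L.m j) L.cY.le (fun j _ => g1 j)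
      (fun _ _ => dvd_rfl) (by
        rw [← lm_det, lm_sub, lm_one]; exact g2) ht
      (L.un.mono fun j ⟨k, e, u⟩ => ⟨_, _, u.hY, fun x => by simp only [t, e]; rfl⟩),
    ?_, fun x => ?_, kr s.ae (τ := 1) (L.un.mono fun j ⟨k, e, u⟩ => u.dr),
    fun g => ?_, ?_⟩
  · refine (congrArg (· *ᵥ lv s.ψ' L.κ) (Rm_lim (τ := 1))).trans ((lv_ac s.toFk _ _).trans ?_)
    exact (lv_ae s.ae' (L.un.mono fun j ⟨k, e, u⟩ => u.kr)).trans lv_zero
  · show (lm s.ψ' s.A - 1) *ᵥ (lm s.ψ (fun j => L.X.S j x) *ᵥ lv s.ψ' L.κ) = 0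
    rw [lv_ac s.toFk, ← lm_one (ψ := s.ψ'), ← lm_sub, ← lv_mv]
    exact (lv_ae s.ae' ((L.un.and s.ks).mono fun j ⟨⟨k, e, u⟩, K⟩ => ks0 K u x)).trans lv_zero
  · show lm s.ψ (fun j => L.X.u j (g j)) *ᵥ lv s.ψ L.dg =
      (lm s.ψ (fun j => (s.γ j).ρ (g j)) - 1) *ᵥ lv s.ψ fun j => (s.γ j).gp
    rw [← lm_one (ψ := s.ψ), ← lm_sub, ← lv_mv, ← lv_mv]
    exact lv_ae s.ae (L.un.mono fun j ⟨k, e, u⟩ => u.du _)
  · have h1 : ∀ᶠ j in U, ∃ (Z : Matrix (Fin L.X.r ⊕ (s.σ ⊕ L.ι) × Fin 2) (Fin L.Y.g) (s.R j))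
        (Z' : Matrix (Fin L.X.g) (Fin L.Y.r ⊕ (s.σ ⊕ L.ι) × Fin 2) (s.R j)),
        ∑ x, ((η j * ω x j) • ((L.X.F j x)ᵀ * Jm (s.R j) * L.Y.S j x) +
          (-(η j * ω x j)) • ((L.X.S j x)ᵀ * Jm (s.R j) * L.Y.F j x)) +
        η j • ∑ y, (L.X.l j y)ᵀ * ((w (s.N j) ((s.q j).l y) ((s.q j).t y) : s.R j) •
          Bt ((s.γ j).ρ ((s.q j).t y)) ((s.γ' j).ρ ((s.q j).φ y)) ((s.γ' j).ρ ((s.q j).t y))
            ((s.q j).l y)) * L.Y.l j y =
        ((L.X.pk j).Rm (s.γ j) 1)ᵀ * Z + Z' * (L.Y.pk j).Rm (s.γ' j) 1 := by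
      filter_upwards [L.un, s.gs.lv, η2, s.ks] with j ⟨k, e, u⟩ V v K
      simp only [ω, e, Option.elim]
      have := H (s.N j) (s.R j) (s.f j) s.σ L.ι (s.γ j) (s.γ' j) 1 s.c _ s.P₂ _ (L.X.pk j) (L.Y.pk j)
        (L.m j) (η j) (gd_Tn K V.gd) (gd_Tn K V.gd') s.gs.cc s.gs.ov (ok1 K u.ad V) (ok2 K u.ad V)
        (fun x => K.md _) V.dual u.hX u.hY
        fun l a b c => v l ((mem_Tn.1 a).resolve_right fun ⟨i, e⟩ => c (inr i) e) b
          fun y => c (inl y)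
      dsimp only [ps, Sk.kp, Sum.elim_inl, Sum.elim_inr] at this
      exact this
    obtain ⟨Z, h1⟩ := U_ch h1
    obtain ⟨Z', h1⟩ := U_ch h1
    have un : ∀ x, IsUnit (s.ψ η * s.ψ (ω x)) := fun x => η1.mul (uω x)
    refine ⟨fun x => s.ψ η * s.ψ (ω x), fun x => -(s.ψ η * s.ψ (ω x)), s.ψ η, lm s.ψ Z, lm s.ψ Z',
      fun x => ⟨un x, (un x).neg⟩, ?_⟩
    have := (s.ae.lm h1).trans ((lm_add _ _).trans (congrArg₂ (· + ·)
      ((lm_mul _ _).trans (congrArg (·ᵀ * lm s.ψ Z) (Rm_lim (τ := 1)).symm))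
      ((lm_mul _ _).trans (congrArg (lm s.ψ Z' * ·) (Rm_lim (τ := 1)).symm))))
    rw [lm_add, lm_sum, lm_smul, lm_sum] at this
    refine Eq.trans (congrArg₂ (· + ·) (Finset.sum_congr rfl fun x _ => ?_)
      (congrArg _ (Finset.sum_congr rfl fun y _ => ?_))) this
    · rw [lm_add, lm_smul, lm_smul, lm_mul, lm_mul, lm_mul, lm_mul, lm_Jm]
      exact congrArg₂ (· + ·) (congrArg (· • _) (s.ψ.map_mul η (ω x)).symm) (congrArg (· • _)
        ((congrArg _ (s.ψ.map_mul η (ω x)).symm).trans (s.ψ.map_neg (η * ω x)).symm))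
    · rw [lm_mul, lm_mul]
      rfl

end Vale.Agent.P014X.Pp
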