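import Vale.Agent.P014X.Pp.Cmp
import Vale.Agent.P014X.Pp.Lmx
import Vale.Agent.P014X.Pp.Lok
import Vale.Agent.P014X.Pp.Lcb
import Vale.Agent.P014X.Kq.Dv
import Vale.Agent.P014U.Pp.Isl
import Vale.Agent.P014U.Pp.Recq

/-! # P014X, block PATQ: the export -/

namespace Vale.Agent.P014X.Pp

open Vale.Agent.P014U

variable [Pp]

/-- **the divisibility** -/
theorem dvp : DVP :=
  cmp Kq.kq lmx (lok (P014U.Pp.isl' P014U.Pp.recq)) lex (lcb P014U.Pp.btl)

end Vale.Agent.P014X.Pp
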