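import Vale.Agent.P014X.Pp.St
import Vale.Agent.P014T.Pp.Cm0

/-! # P014X, block PATQ, row CMP: from the patched system to the small presentation -/

set_option autoImplicit false
set_option linter.all false

open Matrix Filter Submodule Set
open scoped Classical

noncomputable section

namespace Vale.Agent.P014X.Pp

open Vale.Agent.P022 (GQ)
open Vale.Agent.P014U
open Vale.Agent.P004F.Pr (ac mul_ac ac_zero ac_add ac_smul ac_map)
open Vale.Agent.P004F.Pa (up ac_up ac_mk mk_zero)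
open Vale.Agent.P004F.Pat (U Ae lm U_ch lm_mul lm_sub lm_one lm_rows vm_mem)
open Vale.Agent.P014U.Pq (Zq Ps Lu)
open Vale.Agent.P014U.Kq (M2 Gl Pk)
open Vale.Agent.P014U.Pp (lg Rs)
open Vale.Agent.P014T.Pp.Lv
open Vale.Agent.P014T.Pp.Cm (Rp Tr ac_of up_le)
open Vale.Agent.P014T.Ct (Pr Cl db)
open Vale.Agent.P014T.Ba (st cl pr_st det_cl)

namespace Cmp

section alg

variable {A G ι κ ι' κ' : Type} [CommRing A] [Fintype ι] [Fintype κ] [Fintype ι'] [Fintype κ']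
  {Z Z' : ∀ (M : Type) [AddCommGroup M] [Module A M], Set (G → Fin 2 → M)}
  {Q : Matrix ι κ A} {u : G → Matrix (Fin 2) κ A} {Q' : Matrix ι' κ' A}
  {u' : G → Matrix (Fin 2) κ' A} {B : Matrix κ κ' A}

theorem tr (h : Rp Z Q u) (h' : Rp Z' Q' u')
    (s : ∀ (M : Type) [AddCommGroup M] [Module A M], Z' M ⊆ Z M) : ∃ B, Tr Q u Q' u' B := by
  obtain ⟨y, y1, y2⟩ := (h _).surjOn (s _ ((h' _).mapsTo (up_le (L := span A (range Q')) le_rfl)))
  choose B hB using fun k => (span A (range Q')).mkQ_surjective (y k)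
  obtain rfl : (fun k => (span A (range Q')).mkQ (B k)) = y := funext hB
  refine ⟨.of B, fun M _ _ v hv => ⟨funext fun i => ?_, fun g => funext fun i => ?_⟩⟩
  · rw [← mul_ac]
    refine (ac_of hv (y := 0) ?_).trans (by simp)
    exact (ac_mk _ Q (.of B) i).symm.trans ((congrFun y1 i).trans (map_zero _).symm)
  · rw [← mul_ac]
    exact ac_of hv ((ac_mk _ (u g) (.of B) i).symm.trans
      ((congrFun (congrFun y2 g) i).trans (ac_up _ _ i)))

theorem rel (t : Tr Q u Q' u' B) (i : ι) : (Q * B) i ∈ span A (range Q') := by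
  have := (t _ _ (up_le (L := span A (range Q')) le_rfl)).1
  rw [← mul_ac] at this
  exact (mk_zero _).1 ((ac_up _ _ i).symm.trans (congrFun this i))

theorem onto [DecidableEq κ'] (h' : Rp Z' Q' u') (t : Tr Q u Q' u' B) (k : κ') :
    (1 : Matrix κ' κ' A) k ∈ span A (range (fromRows B Q')) := by
  rw [sp_rows]
  have a := up_le (E := Q') (L := span A (range B) ⊔ span A (range Q')) le_sup_right
  have b := up_le (E := B) (L := span A (range B) ⊔ span A (range Q')) le_sup_left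
  have c := (h' _).injOn a (ac_zero Q') (funext fun g =>
    ((t _ _ a).2 g).symm.trans (by rw [b, ac_zero, ac_zero]))
  exact (mk_zero _).1 ((ac_up _ 1 k).symm.trans (by rw [c, ac_zero]; rfl))

variable {S s : Type} [CommRing S] [Algebra A S] (E : Matrix s κ A)

theorem ac_ml (t : S) (y : κ → S) : ac E (fun k => t * y k) = fun i => t * ac E y i :=
  funext fun i => by simp only [ac, Finset.mul_sum, mul_smul_comm]

theorem ac_am (b l : S) (x y : κ → A) :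
    ac E (fun k => b * algebraMap A S (x k) + l * algebraMap A S (y k)) =
      fun i => b * algebraMap A S ((E *ᵥ x) i) + l * algebraMap A S ((E *ᵥ y) i) :=
  funext fun i => by
    simp only [ac, mulVec, dotProduct, map_sum, map_mul, Finset.mul_sum, Algebra.smul_def,
      ← Finset.sum_add_distrib]
    exact Finset.sum_congr rfl fun _ _ => by ring

end alg

variable [Pp]

theorem lu_rp {R σ : Type} [CommRing R] [Fintype σ] {γ : Gl R GQ σ} {τ c : GQ} {T : Finset ℕ}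
    {D : Empty → Subgroup GQ} {q : Ps (σ ⊕ Empty)} {p : Pk R GQ σ Empty}
    (h : Lu γ τ T c D q p fun _ => 0) : Rp (fun M _ _ => Zq M T γ.ρ c) (p.Rm γ τ) p.u := fun M _ _ =>
  ⟨fun v a => ((h.bij M).mapsTo a).1,
    fun v a v' a' e => (h.bij M).injOn a a' (Prod.ext e (funext fun b => b.elim)), fun x a => by
      obtain ⟨v, b, e⟩ := (h.bij M).surjOn (show (x, fun b => b.elim) ∈ _ from ⟨a, fun b => b.elim⟩)
      exact ⟨v, b, congrArg Prod.fst e⟩⟩

theorem Rm_lim {R : ℕ → Type} [∀ j, CommRing (R j)] {O σ ι : Type} [CommRing O] [Fintype σ]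
    [Fintype ι] (ψ : (∀ j, R j) →+* O) (γ : ∀ j, Gl (R j) GQ σ) (X : Rs R σ ι) :
    (X.lim ψ).Rm (lg ψ γ) 1 = lm ψ fun j => (X.pk j).Rm (γ j) 1 := by
  refine Matrix.ext fun a i => ?_
  rcases a with a | ⟨y | x, a⟩
  · rfl
  · exact congrFun (congrFun (lm_mul (fun j => (γ j).N y) fun j => X.l j y).symm a) i
  · show (((lm ψ fun j => (γ j).ρ 1) - 1) * lm ψ fun j => X.S j x : Matrix (Fin 2) (Fin X.g) O) a i = _
    rw [← lm_one (ψ := ψ), ← lm_sub, ← lm_mul]; rfl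

end Cmp

open Cmp

variable [Pp]

/-- **the comparison** -/
theorem cmp : CMP := fun kq h1 h2 h3 h4 O _ _ _ s T₀ r Q u v w x a b l hz C => by
  obtain ⟨X, Y, m, κ, dg, cX, cY, un, -⟩ := h1 _ s Empty (fun j => some Empty.elim)
    (.of_forall fun j => ⟨_, rfl, fun i => i.elim, fun i => i.elim, fun i => i.elim, fun i => i.elim⟩)
  let L : s.Lm := ⟨Empty, _, X, Y, m, κ, dg, cX, cY, un⟩
  have lv1 : ∀ᶠ j in U, ∃ B : Matrix (Fin X.g) (Fin (r + 2)) (s.R j),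
      (∀ i, ((X.pk j).Rm (s.γ j) 1 * B) i ∈ span (s.R j) (range (Q j))) ∧
      (∀ k : Fin (r + 2), (1 : Matrix _ _ (s.R j)) k ∈ span (s.R j) (range (fromRows B (Q j)))) ∧
      dg j = B *ᵥ v j ∧ Q j *ᵥ v j = 0 ∧ Q j *ᵥ w j = 0 ∧ ∀ i, a j * κ j i =
        b j * algebraMap _ _ ((B *ᵥ w j) i) + l j * algebraMap _ _ ((B *ᵥ v j) i) := by
    filter_upwards [hz, un] with j ⟨z0, z1, z2, z3, z4⟩ ⟨n, _, y⟩
    have e0 : Finset.univ.image n = ∅ := by simp
    have R1 := lu_rp y.hX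
    obtain ⟨B, t⟩ := tr R1 (Z' := fun M _ _ => Zq M T₀ (s.γ j).ρ s.c) z1 fun M _ _ x k =>
      ⟨k.1, k.2.1, fun g ⟨p, p1, p2⟩ => k.2.2.1 g
        ⟨p, fun i => p1 (Finset.mem_union_left _ (z0 i)), p2⟩, k.2.2.2⟩
    have t1 := t _ _ z2.1
    have t2 := t _ _ z3.1
    refine ⟨B, rel t, onto z1 t, (R1 _).injOn y.dr t1.1 (funext fun g => (y.du g).trans
      ((t1.2 g).trans (z2.2 g)).symm), z2.1, z3.1, congrFun ((R1 (s.B j)).injOn
        (x₁ := fun i => a j * κ j i) ?_ ?_ (funext fun g => ?_))⟩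
    · exact (ac_ml ..).trans (funext fun i => by rw [y.kr, Pi.zero_apply, mul_zero])
    · refine (ac_am ..).trans (funext fun i => ?_)
      rw [show _ *ᵥ B *ᵥ w j = 0 from t2.1, show _ *ᵥ B *ᵥ v j = 0 from t1.1]
      simp
    · refine (ac_ml ..).trans (Eq.trans (funext fun i => ?_) (ac_am ..).symm)
      rw [y.ku, e0, z4, show _ *ᵥ B *ᵥ w j = _ from (t2.2 g).trans (z3.2 g),
        show _ *ᵥ B *ᵥ v j = _ from (t1.2 g).trans (z2.2 g)]
  obtain ⟨B, lv1⟩ := U_ch lv1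
  have on : ∀ y : Fin (r + 2) → O, ∃ α β, y = α ᵥ* lm s.ψ B + β ᵥ* lm s.ψ Q := fun y => by
    have : y ᵥ* 1 ∈ span O (range (lm s.ψ B)) ⊔ span O (range (lm s.ψ Q)) := vm_mem (fun k => by
      rw [← sp_rows, ← lm_rows, ← lm_one (ψ := s.ψ)]
      exact lv_mem s.ae (lv1.mono fun j e => e.2.1 k)) y
    rw [vecMul_one] at this
    obtain ⟨_, p1, _, p2, rfl⟩ := mem_sup.1 this
    exact (mem_sp.1 p1).elim fun α e => (mem_sp.1 p2).elim fun β e' => ⟨α, β, by rw [e, e']⟩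
  choose α β hα using on
  have k y : α y ᵥ* lm s.ψ B - y ∈ span O (range (lm s.ψ Q)) :=
    mem_sp.2 ⟨-β y, by rw [neg_vecMul, sub_eq_iff_eq_add, ← sub_eq_iff_eq_add', sub_neg_eq_add, ← hα]⟩
  have d1 : L.sg.dg = lm s.ψ B *ᵥ lv s.ψ v :=
    (lv_ae s.ae (lv1.mono fun j e => e.2.2.1)).trans (lv_mv _ _)
  have q1 : lm s.ψ Q *ᵥ lv s.ψ v = 0 :=
    (lv_mv _ _).symm.trans ((lv_ae s.ae (lv1.mono fun j e => e.2.2.2.1)).trans lv_zero)
  have q2 : lm s.ψ Q *ᵥ lv s.ψ w = 0 :=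
    (lv_mv _ _).symm.trans ((lv_ae s.ae (lv1.mono fun j e => e.2.2.2.2.1)).trans lv_zero)
  have d2 : s.ψ' a • L.sg.κ =
      s.ψ' b • (lm s.ψ B *ᵥ lv s.ψ w) + s.ψ' l • (lm s.ψ B *ᵥ lv s.ψ v) := funext fun i => by
    rw [← lv_mv, ← lv_mv]
    show s.ψ' a * s.ψ' _ = s.ψ' b * s.ψ _ + s.ψ' l * s.ψ _
    rw [s.hψ, s.hψ, ← map_mul, ← map_mul, ← map_mul, ← map_add]
    exact s.ae' _ _ (lv1.mono fun j e => e.2.2.2.2.2 i)
  have dt : ∀ y z, lm s.ψ Q *ᵥ z = 0 → α y ⬝ᵥ (lm s.ψ B *ᵥ z) = y ⬝ᵥ z := fun y z k => by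
    conv_rhs => rw [hα y, add_dotProduct, ← dotProduct_mulVec (β y), k, dotProduct_zero, add_zero]
    exact dotProduct_mulVec ..
  refine ⟨L.sg.W fun i => α (C i), kq O (h4 h2.choose O s).1 (s.sy h2 h3 h4 L inferInstance) _ _
    ((span O (range (lm s.ψ Q)) ⊔ span O (range C)).mkQ ∘ₗ (lm s.ψ B).vecMulLinear) _
    (fun y => ?_) (fun y hy => ?_) (pr_st _ _ C), ?_⟩
  · obtain ⟨y, rfl⟩ := mkQ_surjective _ y
    exact ⟨α y, (Submodule.Quotient.eq _).2 (mem_sup_left (k y))⟩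
  · refine (sup_le (span_le.2 ?_) (span_le.2 ?_) : _ ≤ LinearMap.ker _) hy
    · rintro _ ⟨i, rfl⟩
      refine (Submodule.Quotient.mk_eq_zero _).2 (mem_sup_left ?_)
      exact (congrFun ((lm_mul (ψ := s.ψ) (fun j => (X.pk j).Rm (s.γ j) 1) B).trans
        (congrArg (· * lm s.ψ B) (Rm_lim s.ψ s.γ X).symm)) i).subst (motive := (· ∈ _))
        (lv_mem s.ae (lv1.mono fun j e => e.1 i))
    · rintro _ ⟨i, rfl⟩
      exact (Submodule.Quotient.mk_eq_zero _).2 ((sub_add_cancel _ (C i)).subst (motive := (· ∈ _))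
        (add_mem (mem_sup_left (k _)) (mem_sup_right (subset_span ⟨i, rfl⟩))))
  · have e i := (dotProduct_smul (s.ψ' a) (α (C i)) L.sg.κ).symm.trans (congrArg (α (C i) ⬝ᵥ ·) d2)
    simp only [dotProduct_add, dotProduct_smul, smul_eq_mul, dt _ _ q1, dt _ _ q2] at e
    refine Eq.trans ?_ (congrArg _ (det_cl (fun i => C i) _ _).symm)
    show _ * ((α (C 0) ⬝ᵥ L.sg.dg) * (α (C 1) ⬝ᵥ L.sg.κ) -
      (α (C 1) ⬝ᵥ L.sg.dg) * (α (C 0) ⬝ᵥ L.sg.κ)) = _
    rw [d1, dt _ _ q1, dt _ _ q1]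
    linear_combination (C 0 ⬝ᵥ lv s.ψ v) * e 1 - (C 1 ⬝ᵥ lv s.ψ v) * e 0

end Vale.Agent.P014X.Pp
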