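import Vale.Agent.P014X.Kq.St
import Vale.Agent.P014U.Pp.St
import Vale.Agent.P014T.Pp.Lv
import Vale.Agent.P014T.Ct.St

/-! # P014X, block PATQ: from the finite levels to the patched system (words, rows, glue) -/

set_option autoImplicit false
set_option linter.all false

open NumberField Matrix Filter Submodule Set Sum
open scoped Classical

noncomputable section

namespace Vale.Agent.P014X.Pp

open Vale.Agent.P022 (Qb GQ IsConj)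
open Vale.Agent.P022D.W (dec)
open Vale.Agent.P022E.GW (Ov Fb)
open Vale.Agent.P014U
open Vale.Agent.P014U.X4F (Nt)
open Vale.Agent.P004F.Pr (ac)
open Vale.Agent.P004F.Pat (U Ae lm)
open Vale.Agent.P014U.Pq (Zq Gd Ps Tm Lu)
open Vale.Agent.P014U.Dr (Hm Zn)
open Vale.Agent.P014U.Kq (M2 F4 Gl Pk Sg)
open Vale.Agent.P014U.Pp (ec ps lg Rs Hs Jm Bt Vn)
open Vale.Agent.P014T.Pp.Lv (lv)
open Vale.Agent.P014T.Ct (Pr Cl db)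
open Vale.Agent.P014T.Ba (st cl)
open Vale.Agent.P014X.Kq (Go So Se SyK KQ)

variable [Pp]

/-- the frame of a sequence; the classes have their values in the algebras `B j` -/
structure Fk (O : Type) [CommRing O] where
  R : ℕ → Type
  [cR : ∀ j, CommRing (R j)]
  [lR : ∀ j, IsLocalRing (R j)]
  [fR : ∀ j, Finite (R j)]
  B : ℕ → Type
  [cB : ∀ j, CommRing (B j)]
  [aB : ∀ j, Algebra (R j) (B j)]
  ψ : (∀ j, R j) →+* O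
  ψ' : (∀ j, B j) →+* O
  ae : Ae ψ
  ae' : Ae ψ'
  hψ : ∀ x, ψ x = ψ' fun j => algebraMap (R j) (B j) (x j)
  π : ∀ j, R j →+* ZMod pp
  N : ℕ → ℕ
  f : ∀ j, Zn (N j) →+* R j
  σ : Type
  [fσ : Fintype σ]
  γ : ∀ j, Gl (R j) GQ σ
  γ' : ∀ j, Gl (R j) GQ σ
  q : ℕ → Ps σ
  S₀ : Finset ℕ
  T : ℕ → Finset ℕ
  c : GQ
  P₂ : Ideal (𝓞 Qb)
  K : Subgroup GQ
  A : ∀ j, M2 (B j)
  A' : ∀ j, M2 (B j)

attribute [instance] Fk.cR Fk.lR Fk.fR Fk.cB Fk.aB Fk.fσ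

namespace Fk

variable {O : Type} [CommRing O] (s : Fk O)

abbrev G : Gl O (ℕ → GQ) s.σ := lg s.ψ s.γ

abbrev G' : Gl O (ℕ → GQ) s.σ := lg s.ψ s.γ'

abbrev H : Subgroup (ℕ → GQ) := Hs s.N (fun j => (s.γ j).ρ) fun j => (s.γ' j).ρ

/-- the sequences which are in `K` at almost all levels -/
def Kl : Subgroup (ℕ → GQ) where
  carrier := {h | ∀ᶠ j in U, h j ∈ s.K}
  mul_mem' a b := (Eventually.and a b).mono fun _ e => mul_mem e.1 e.2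
  one_mem' := .of_forall fun _ => one_mem _
  inv_mem' a := Eventually.mono a fun _ e => inv_mem e

/-- the conditions at one level -/
structure Lv (j : ℕ) : Prop where
  gd : Gd ⊤ (s.S₀ ∪ s.T j) (s.γ j).ρ
  gd' : Gd ⊤ (s.S₀ ∪ s.T j) (s.γ' j).ρ
  dual : ∀ g, ((s.γ j).ρ g)ᵀ * Jm _ * (s.γ' j).ρ g = s.f j (ec (s.N j) g) • Jm _
  fix : (s.γ j).ρ s.c *ᵥ (s.γ j).gp = (s.γ j).gp
  mem : ∀ y, (s.q j).l y ∈ s.S₀ ∪ s.T j
  inj : Function.Injective (s.q j).l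
  tm : ∀ y, Tm (s.γ j).ρ ((s.q j).l y) ((s.q j).P y) ((s.q j).φ y) ((s.q j).t y)
  tm' : ∀ y, Tm (s.γ' j).ρ ((s.q j).l y) ((s.q j).P y) ((s.q j).φ y) ((s.q j).t y)
  hN : ∀ y, (s.γ j).N y = Nt ((s.γ j).ρ ((s.q j).φ y)) ((s.γ j).ρ ((s.q j).t y)) ((s.q j).l y)
  hN' : ∀ y, (s.γ' j).N y = Nt ((s.γ' j).ρ ((s.q j).φ y)) ((s.γ' j).ρ ((s.q j).t y)) ((s.q j).l y)

/-- the level data are good, with bounded ramification and constant residual actions -/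
structure Gs : Prop where
  lv : ∀ᶠ j in U, s.Lv j
  two : pp ∈ s.S₀
  cc : IsConj s.c
  ov : Ov pp s.P₂
  bd : ∃ n, ∀ j, (s.T j).card ≤ n
  nK : s.K.Normal
  cov : ∀ g, g ∈ s.K ∨ s.c⁻¹ * g ∈ s.K
  res : ∃ a₀ a₀' : GQ → M2 (ZMod pp), Gd ⊤ s.S₀ a₀ ∧ Gd ⊤ s.S₀ a₀' ∧ ∀ᶠ j in U,
    (∀ g, ((s.γ j).ρ g).map (s.π j) = a₀ g ∧ ((s.γ' j).ρ g).map (s.π j) = a₀' g) ∧
    ∃ l ∈ s.S₀ ∪ s.T j, l ≠ pp ∧ (∀ y, (s.q j).l y ≠ l) ∧
      ∃ Q, Ov l Q ∧ ∀ g ∈ dec Q, a₀ g = 1 ∧ a₀' g = 1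

/-- the group theory of the limit -/
structure G1 : Prop where
  g1 : Go s.G s.Kl s.H (fun _ => s.c) (lm s.ψ' s.A)
  g2 : Go s.G' s.Kl s.H (fun _ => s.c) (lm s.ψ' s.A')
  AJ : (lm s.ψ' s.A)ᵀ * Jm O * lm s.ψ' s.A' = Jm O
  g0 : ∃ g : ℕ → GQ, (∀ j, g j ∈ dec s.P₂) ∧ IsUnit (s.G'.ρ g - 1).det

/-- the local factors -/
structure G2 (P : s.σ → O) : Prop where
  P0 : ∀ y, P y ≠ 0
  PN : ∀ y, P y ∈ Ideal.span (range fun D : Matrix F4 (Fin 2) O => (s.G.N y * D).det)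
  N0 : ∀ y, ∃ D : Matrix F4 (Fin 2) O, (s.G'.N y * D).det ≠ 0
  cb : ∀ y, ∃ D : Matrix (Fin 2) F4 O, (D * fromRows (s.G.ρ (fun j => (s.q j).φ y) - 1)
    (s.G.ρ (fun j => (s.q j).t y) - 1)).det ≠ 0

/-- the remaining places -/
def G3 : Prop := ∃ η : ∀ j, s.R j, IsUnit (s.ψ η) ∧ ∀ᶠ j in U, ∀ l ∈ s.S₀ ∪ s.T j, l ≠ pp →
  (∀ y, (s.q j).l y ≠ l) → ∃ Q, Ov l Q ∧ Vn (s.γ j).ρ (η j) Q

/-- **the Kolyvagin classes at one level** -/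
structure Kv (j : ℕ) {Kq : Type} (pl : Ps Kq) (κ : Finset Kq → GQ → Fin 2 → s.B j) : Prop where
  ov : ∀ k, Ov (pl.l k) (pl.P k)
  fb : ∀ k, Fb (pl.l k) (pl.P k) (pl.φ k)
  gn : ∀ k, Gn (pl.l k) (pl.P k) (pl.t k)
  md : ∀ k, pl.l k % pp ^ (s.N j + 2) = 1
  ex : ∀ h, (s.γ j).ρ h = 1 → (s.γ' j).ρ h = 1 → h ∈ Hm (pp ^ (s.N j + 2)) →
    ∀ (W : Subgroup GQ) (T : Finset ℕ), IsOpen (W : Set GQ) → ∃ k, pl.l k ∉ T ∧ h⁻¹ * pl.φ k ∈ W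
  mem : ∀ n : Finset Kq, InjOn pl.l n →
    κ n ∈ Zq (s.B j) (s.S₀ ∪ s.T j ∪ n.image pl.l) (s.γ j).ρ s.c
  ker : ∀ n : Finset Kq, InjOn pl.l n → ∀ k ∈ n, (s.A j - 1) *ᵥ κ n (pl.t k) = 0
  fs : ∀ (n : Finset Kq) k, k ∉ n → InjOn pl.l (insert k n : Finset Kq) →
    2 • κ (insert k n) (pl.t k) = (s.A j - 1).adjugate *ᵥ κ n (pl.φ k)

end Fk

/-- a good sequence with its Kolyvagin classes -/
structure Sk (O : Type) [CommRing O] extends Fk O where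
  gs : toFk.Gs
  g1 : toFk.G1
  P : σ → O
  g2 : toFk.G2 P
  g3 : toFk.G3
  Kq : ℕ → Type
  pl : ∀ j, Ps (Kq j)
  κ : ∀ j, Finset (Kq j) → GQ → Fin 2 → B j
  ks : ∀ᶠ j in U, toFk.Kv j (pl j) (κ j)

namespace Sk

variable {O : Type} [CommRing O] (s : Sk O) {ι : Type} [Fintype ι]

/-- admissible families of Kolyvagin primes -/
structure Ad (j : ℕ) (n : ι → s.Kq j) : Prop where
  inj : Function.Injective fun i => (s.pl j).l (n i)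
  out : ∀ i, (s.pl j).l (n i) ∉ s.S₀ ∪ s.T j
  fr : ∀ i, (s.γ j).ρ ((s.pl j).φ (n i)) = 1
  fr' : ∀ i, (s.γ' j).ρ ((s.pl j).φ (n i)) = 1

/-- their places -/
def kp (j : ℕ) (n : ι → s.Kq j) : Ps ι :=
  ⟨fun i => (s.pl j).l (n i), fun i => (s.pl j).P (n i), fun i => (s.pl j).φ (n i),
    fun i => (s.pl j).t (n i)⟩

/-- the bad primes of a stage -/
def Tn (j : ℕ) (n : ι → s.Kq j) : Finset ℕ :=
  s.S₀ ∪ s.T j ∪ (Finset.univ.image n).image (s.pl j).l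

/-- a stage at one level -/
structure Ls (j : ℕ) (n : ι → s.Kq j) (X Y : Pk (s.R j) GQ s.σ ι)
    (m : Matrix (Fin 2) (Fin Y.g) (s.R j)) (κ : Fin X.g → s.B j) (dg : Fin X.g → s.R j) : Prop where
  ad : s.Ad j n
  hX : Lu (s.γ j) 1 (s.Tn j n) s.c (fun _ : Empty => dec s.P₂) (ps (s.q j) (s.kp j n)) X fun _ => 0
  hY : Lu (s.γ' j) 1 (s.Tn j n) s.c (fun _ : Unit => dec s.P₂) (ps (s.q j) (s.kp j n)) Y fun _ => m
  kr : ac (X.Rm (s.γ j) 1) κ = 0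
  ku : ∀ g, ac (X.u g) κ = s.κ j (Finset.univ.image n) g
  dr : X.Rm (s.γ j) 1 *ᵥ dg = 0
  du : ∀ g, X.u g *ᵥ dg = ((s.γ j).ρ g - 1) *ᵥ (s.γ j).gp

/-- a sequence of stages -/
structure Lm where
  ι : Type
  [fι : Fintype ι]
  n : ∀ j, Option (ι → s.Kq j)
  X : Rs s.R s.σ ι
  Y : Rs s.R s.σ ι
  m : ∀ j, Matrix (Fin 2) (Fin Y.g) (s.R j)
  κ : ∀ j, Fin X.g → s.B j
  dg : ∀ j, Fin X.g → s.R j
  cX : X.r + 2 * (Fintype.card s.σ + Fintype.card ι) + 2 = X.g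
  cY : Y.r + 2 * (Fintype.card s.σ + Fintype.card ι) = Y.g
  un : ∀ᶠ j in U, ∃ k, n j = some k ∧ s.Ls j k (X.pk j) (Y.pk j) (m j) (κ j) (dg j)

attribute [instance] Lm.fι

/-- the local pairings -/
def Bp (w : ℕ → ℕ → GQ → ℕ) (y : s.σ) : Matrix F4 F4 O := lm s.ψ fun j =>
  (w (s.N j) ((s.q j).l y) ((s.q j).t y) : s.R j) • Bt ((s.γ j).ρ ((s.q j).t y))
    ((s.γ' j).ρ ((s.q j).φ y)) ((s.γ' j).ρ ((s.q j).t y)) ((s.q j).l y)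

variable {s}

/-- the limit stage -/
def Lm.sg (L : s.Lm) : Sg O (ℕ → GQ) s.σ :=
  { ι := L.ι, X := L.X.lim s.ψ, Y := L.Y.lim s.ψ, κ := fun i => s.ψ' fun j => L.κ j i
    dg := fun i => s.ψ fun j => L.dg j i }

end Sk

/-- every sequence of families has a stage -/
def LMX : Prop := ∀ (O : Type) [CommRing O] (s : Sk O) (ι : Type) [Fintype ι]
  (n : ∀ j, Option (ι → s.Kq j)), (∀ᶠ j in U, ∃ k, n j = some k ∧ s.Ad j k) →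
  ∃ X Y m κ dg a b c, (⟨ι, n, X, Y, m, κ, dg, a, b, c⟩ : s.Lm).n = n

def LOK : Prop := ∃ w, ∀ (O : Type) [CommRing O] (s : Sk O) (L : s.Lm),
  So s.G s.G' L.sg s.H (fun _ => s.c) (Jm O) (lm s.ψ' s.A) (s.Bp w)

def LEX : Prop := ∀ (O : Type) [CommRing O] (s : Sk O) (L : s.Lm), ∀ h ∈ s.H,
  ∃ L' : s.Lm, Nonempty (Se s.G s.G' (lm s.ψ' s.A) L.sg L'.sg h)

/-- the algebra of the limit -/
def LCB : Prop := ∀ w (O : Type) [CommRing O] (s : Sk O), IsUnit (2 : O) ∧ s.Kl.Normal ∧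
  s.H.Normal ∧ (∀ g, g ∈ s.Kl ∨ (fun _ => s.c)⁻¹ * g ∈ s.Kl) ∧
  ∀ y, ∃ (Cb : Matrix F4 (Fin 2) O) (D : Matrix (Fin 2) F4 O) (Z : M2 O),
    (D * Cb).det ≠ 0 ∧ s.G.N y * Cb = 0 ∧ Cbᵀ * s.Bp w y = Z * s.G'.N y

/-- the patched system of a sequence -/
def Sk.sy {O : Type} [CommRing O] (s : Sk O) (h2 : LOK) (h3 : LEX) (h4 : LCB) (L : s.Lm)
    (e : IsEmpty L.ι) : SyK O :=
  { G := ℕ → GQ, σ := s.σ, γ := s.G, γ' := s.G', K := s.Kl, H := s.H, c := fun _ => s.c, J := Jm O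
    A := lm s.ψ' s.A, A' := lm s.ψ' s.A', B := s.Bp h2.choose, P := s.P
    nK := (h4 h2.choose O s).2.1, nH := (h4 h2.choose O s).2.2.1
    cov := (h4 h2.choose O s).2.2.2.1, g1 := s.g1.g1, g2 := s.g1.g2
    uJ := by simp [Jm], AJ := s.g1.AJ, P0 := s.g2.P0, PN := s.g2.PN
    N0 := s.g2.N0, cb := (h4 h2.choose O s).2.2.2.2, 𝒮 := range Sk.Lm.sg
    ok := by rintro _ ⟨L, rfl⟩; exact h2.choose_spec O s L
    ext := by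
      rintro _ ⟨L, rfl⟩ h m
      obtain ⟨L', k⟩ := h3 O s L h m
      exact ⟨_, ⟨L', rfl⟩, k⟩
    o := L.sg, mem := ⟨L, rfl⟩, emp := e }

/-- **the export**: `(Q, u)` presents the framed cocycles for a smaller set of primes, the columns
are the coboundary and a class `x` which is proportional to the bottom class -/
def DVP : Prop := ∀ (O : Type) [CommRing O] [IsDomain O] [IsDiscreteValuationRing O] (s : Sk O)
  (T₀ : Finset ℕ) (r : ℕ) (Q : ∀ j, Matrix (Fin r) (Fin (r + 2)) (s.R j))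
  (u : ∀ j, GQ → Matrix (Fin 2) (Fin (r + 2)) (s.R j)) (v w : ∀ j, Fin (r + 2) → s.R j)
  (x : ∀ j, GQ → Fin 2 → s.R j) (a b l : ∀ j, s.B j),
  (∀ᶠ j in U, T₀ ⊆ s.S₀ ∪ s.T j ∧ Pr (s.γ j).ρ T₀ s.c (Q j) (u j) ∧
    Cl (Q j) (u j) (v j) (db (s.γ j).ρ (s.γ j).gp) ∧ Cl (Q j) (u j) (w j) (x j) ∧
    ∀ g i, a j * s.κ j ∅ g i = b j * algebraMap _ _ (x j g i) +
      l j * algebraMap _ _ (db (s.γ j).ρ (s.γ j).gp g i)) →
  ∀ C : Matrix (Fin 2) (Fin (r + 2)) O, ∃ W : O,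
    (st finSumFinEquiv.symm (lm s.ψ Q) C).det ∣ (∏ y, s.P y) * W ∧
    s.ψ' a * W = s.ψ' b * (C * cl (lv s.ψ v) (lv s.ψ w)).det

/-- the comparison -/
def CMP : Prop := KQ → LMX → LOK → LEX → LCB → DVP

end Vale.Agent.P014X.Pp
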